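import Vale.Agent.P050.H226.EG.Main
import Vale.Agent.P050.H692.Sub3.Main5

/-!
# P050: every graph, its edges replaced by series-parallel parts

Every finite multigraph `J` without loops, bipartite or not, becomes a Sidorenko graph if its edges
are replaced by series-parallel parts whose lengths are sums of lengths given to the vertices, as
soon as there are enough short cycles; their number is compared with the number of vertices of `J`,
not with the number of its edges.
-/

namespace Vale.Agent.Results.P050.EveryGraph

open Vale.Agent.P050 Vale.Agent.P050.H936 Vale.Agent.P050.H226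

/-- (1) Let `V` and `C` be finite sets. Let `E` be a finite set of edges, the edge `e` joining the
different vertices `s e` and `t e` of `V`; and let `D` be a finite set of edges, the edge `d` joining
the vertex `b d` of `V` to the vertex `a d` of `C`, where the pairs `(a d, b d)` are different and
every vertex of `C` is on one of these edges. Let every vertex `v` of `V` have a number `m v ≥ 1`
(and the vertices of `C` the number `0`). Replace every edge of `E` and `D` by a series-parallel part
(`SP`) whose length `SP.len` is the sum of the numbers of its ends, and in which only parts of the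
same length, at least 2, are put in parallel (`SP.Ok`). Let `μ ≥ 2`. Suppose that one of the
following holds.
(a) There is an edge `e₀` in `E` with `m v ≥ μ` for all `v` in `V` other than its ends, and `|V|` is
at most the number of parallel compositions of parts of length at most `μ` (`SP.gain`), plus `j + 2`,
plus the number of edges `e ≠ e₀` in `E` of length at most `μ`, plus, for every `c` in `C`, the
number of edges `d` from `c` to vertices `v` with `2 m v ≤ μ`, minus one (if it is not zero).
(b) There is a vertex `c₀` in `C` with `m v ≥ μ` for all `v` in `V` not joined to it, and `|V|` is at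
most the number of parallel compositions of parts of length at most `μ`, plus `j`, plus the degree
of `c₀`, plus the number of edges in `E` of length at most `μ`, plus, for every `c ≠ c₀` in `C`, the
same number as in (a).
Then the new graph `F` (`spGraph`) satisfies `t(F, G) t(C_4, G) ^ j ≥ p(G) ^ (e(F) + 4 j)` for every
finite graph `G`; for `j = 0` this is Sidorenko's inequality for `F`.
(2) In particular: let `J` be a connected graph with the vertices `0, ..., n - 1`, `n ≥ 2`, and let
`a v ≥ 0` for every vertex `v`. The graph `EG.sub J a D`, `D` being the set of all edges, obtained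
when every edge `u v` of `J`, `u < v`, is replaced by a path of length `a u + a v + 4` whose vertex
at distance `a u + 2` from `u` is doubled, is Sidorenko. -/
theorem result :
    (∀ (V C E D : Type) [Fintype V] [Fintype C] [Fintype E] [Fintype D] (s t : E → V)
      (a : D → C) (b : D → V), (∀ e, s e ≠ t e) → (∀ d d', a d = a d' → b d = b d' → d = d') →
      Function.Surjective a → ∀ (m : V → ℕ) (μ : ℕ), 2 ≤ μ → (∀ v, 1 ≤ m v) →
      ∀ (g : E → SP) (k : D → SP), (∀ e, (g e).Ok) → (∀ d, (k d).Ok) →
      (∀ e, (g e).len = m (s e) + m (t e)) → (∀ d, (k d).len = m (b d)) → ∀ j : ℕ,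
      ((∃ e₀, (∀ v, v = s e₀ ∨ v = t e₀ ∨ μ ≤ m v) ∧
          Fintype.card V ≤ ∑ e, (g e).gain μ + ∑ d, (k d).gain μ + j + 2 +
            Nat.card {e // (g e).len ≤ μ ∧ e ≠ e₀} +
            ∑ c, (Nat.card {d // a d = c ∧ 2 * m (b d) ≤ μ} - 1)) ∨
        ∃ c₀, (∀ v, (∃ d, a d = c₀ ∧ b d = v) ∨ μ ≤ m v) ∧
          Fintype.card V ≤ ∑ e, (g e).gain μ + ∑ d, (k d).gain μ + j +
            Nat.card {d // a d = c₀} + Nat.card {e // (g e).len ≤ μ} +
            ∑ c, (Nat.card {d // c ≠ c₀ ∧ a d = c ∧ 2 * m (b d) ≤ μ} - 1)) →
      ∀ (X : Type) [Fintype X] [Nonempty X] (G : SimpleGraph X),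
      edgeDensity G ^ (Nat.card (spGraph (Sum.elim (fun e => Sum.inl (s e)) fun d => Sum.inl (b d))
          (Sum.elim (fun e => Sum.inl (t e)) fun d => Sum.inr (a d)) (Sum.elim g k)).edgeSet +
          4 * j) ≤
        homDensity (spGraph (Sum.elim (fun e => Sum.inl (s e)) fun d => Sum.inl (b d))
          (Sum.elim (fun e => Sum.inl (t e)) fun d => Sum.inr (a d)) (Sum.elim g k)) G *
          homDensity (SimpleGraph.cycleGraph 4) G ^ j) ∧
    (∀ (n : ℕ) (J : SimpleGraph (Fin n)), J.Connected → 2 ≤ n → ∀ (a : Fin n → ℕ)
      (D : Finset (EG.Edges J)), (∀ e, e ∈ D) →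
      ∀ (X : Type) [Fintype X] [Nonempty X] (G : SimpleGraph X),
      edgeDensity G ^ Nat.card (EG.sub J a D).edgeSet ≤ homDensity (EG.sub J a D) G) :=
  ⟨H692.Sub3.every5, fun _ J hJ hn a D hD X _ _ G => EG.sub_conn J hJ hn a D hD X G⟩

end Vale.Agent.Results.P050.EveryGraph
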