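import Vale.Agent.P050.M18.BouquetMain
import Vale.Agent.P050.M18C.Fin2

namespace Vale.Agent.Results.P050.LadderMixing

open Vale.Agent.P050 Vale.Agent.P050.H148

/-- **Moebius ladders: exponent `3 k` up to a superpolynomially small error.** Let `M(k)` be the
Moebius ladder with `k` rungs (`moebiusLadder k`, `2 k` vertices and `3 k` edges, `k` odd), `Q` the
graph of the 3-dimensional cube, `p`, `t` the edge density and the homomorphism densities of a
finite graph `G`. Let `s ≥ 2`, `N = 2 ^ (s (s - 1) / 2)` and `k ≥ 4 ^ (s + 1) + 11` odd. Then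
(1) `p ^ 48 t(C_4) ^ (3 k N) ≤ t(M(k)) ^ (4 N) t(Q) ^ 4`;
(2) `p ^ (3 k N + 12) ≤ t(M(k)) ^ N t(Q)`, that is, the disjoint union of `N` copies of `M(k)` and
one cube satisfies Sidorenko's inequality;
(3) `p ^ 32 t(C_4) ^ (3 k N) ≤ t(M(k)) ^ (4 N)` and `p ^ (3 k N + 8) ≤ t(M(k)) ^ N`;
(4) if `p ^ (12 k N) ≤ p ^ 32 t(C_4) ^ (3 k N)`, that is, `t(C_4) ≥ p ^ (4 - 32 / (3 k N))`, then
`t(M(k)) ≥ p ^ (3 k)`;
(5) let `B` be the connected graph which consists of `N` copies of `M(k)` and one cube, all of them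
with one common rung (`bouquet N k`, with `8 + 2 N (k - 1)` vertices and `12 + N (3 k - 1)` edges);
it satisfies Sidorenko's inequality, `p ^ (12 + N (3 k - 1)) ≤ t(B)`, and even
`p ^ 48 t(C_4) ^ (3 k N) ≤ p ^ (4 N) t(B) ^ 4`;
(6) for all odd `k ≥ 5` and all graphs, `t(M(k)) ≥ p ^ (3 k + 4096 exp (- (log k) ^ 2 / 10))`.
The ladder with four rungs, which is used in the definition of `B`, is the cube.
Moreover, (7) `M(5)`, that is, `K_{5,5}` minus a cycle of length 10, together with `c ≥ 1` more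
vertices, each of them joined to the two vertices `(0, true)` and `(1, true)` of `M(5)`
(`cherries 5 c`, with `10 + c` vertices and `15 + 2 c` edges), satisfies Sidorenko's inequality. -/
theorem result :
    (∀ (X : Type) [Fintype X] [Nonempty X] (G : SimpleGraph X) (k s : ℕ), Odd k → 2 ≤ s →
      4 ^ (s + 1) + 11 ≤ k →
      (edgeDensity G ^ 48 * homDensity (SimpleGraph.cycleGraph 4) G ^ (3 * k * 2 ^ (s.choose 2)) ≤
        homDensity (moebiusLadder k) G ^ (4 * 2 ^ (s.choose 2)) *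
          homDensity ((SimpleGraph.cycleGraph 4).boxProd (⊤ : SimpleGraph Bool)) G ^ 4) ∧
      (edgeDensity G ^ (3 * k * 2 ^ (s.choose 2) + 12) ≤
        homDensity (moebiusLadder k) G ^ (2 ^ (s.choose 2)) *
          homDensity ((SimpleGraph.cycleGraph 4).boxProd (⊤ : SimpleGraph Bool)) G) ∧
      (edgeDensity G ^ 32 * homDensity (SimpleGraph.cycleGraph 4) G ^ (3 * k * 2 ^ (s.choose 2)) ≤
        homDensity (moebiusLadder k) G ^ (4 * 2 ^ (s.choose 2))) ∧
      (edgeDensity G ^ (3 * k * 2 ^ (s.choose 2) + 8) ≤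
        homDensity (moebiusLadder k) G ^ (2 ^ (s.choose 2))) ∧
      (edgeDensity G ^ (12 * k * 2 ^ (s.choose 2)) ≤ edgeDensity G ^ 32 *
          homDensity (SimpleGraph.cycleGraph 4) G ^ (3 * k * 2 ^ (s.choose 2)) →
        edgeDensity G ^ (3 * k) ≤ homDensity (moebiusLadder k) G) ∧
      (edgeDensity G ^ (12 + 2 ^ (s.choose 2) * (3 * k - 1)) ≤
        homDensity (M18.bouquet (2 ^ (s.choose 2)) k) G) ∧
      (edgeDensity G ^ 48 * homDensity (SimpleGraph.cycleGraph 4) G ^ (3 * k * 2 ^ (s.choose 2)) ≤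
        edgeDensity G ^ (4 * 2 ^ (s.choose 2)) *
          homDensity (M18.bouquet (2 ^ (s.choose 2)) k) G ^ 4)) ∧
    (Nonempty (moebiusLadder 4 ≃g
      (SimpleGraph.cycleGraph 4).boxProd (⊤ : SimpleGraph Bool))) ∧
    (∀ (X : Type) [Fintype X] [Nonempty X] (G : SimpleGraph X) (k : ℕ), Odd k → 5 ≤ k →
      edgeDensity G ^ (3 * (k : ℝ) + 4096 * Real.exp (-(Real.log k) ^ 2 / 10)) ≤
        homDensity (moebiusLadder k) G) ∧
    (∀ (X : Type) [Fintype X] [Nonempty X] (G : SimpleGraph X) (c : ℕ), 1 ≤ c →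
      edgeDensity G ^ (15 + 2 * c) ≤ homDensity (M18C.cherries 5 c) G) :=
  ⟨fun _ _ _ G k s hk hs h => ⟨M18.main_ineq G k s hk hs h, M18.copies_cube G k s hk hs h,
    M18.ladder_four G k s hk hs h, M18.ladder_exp G k s hk hs h, M18.ladder_rich G k s hk hs h,
    M18.bouq_sidorenko G k s hk hs h, M18.bouq_four G k s hk hs h⟩, M18.cube_iso,
    fun _ _ _ G k hk h5 => M18.ladder_real G k hk h5,
    fun _ _ _ G c hc => M18C.cherries_sidorenko' c hc G⟩

end Vale.Agent.Results.P050.LadderMixing
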