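import Vale.Agent.P050.H98.Box
import Vale.Agent.P050.H98.SubGood
import Vale.Agent.P050.H743.Clo.Fin

namespace Vale.Agent.Results.P050.LayeredProducts

open Finset Vale.Agent.P050 Vale.Agent.P050.Lev Vale.Agent.P050.H98 Vale.Agent.P050.Tmpl
open Vale.Agent.P050.H177 Vale.Agent.P050.H687 Vale.Agent.P050.H743.Clo

/-- Operations on arbitrary graphs with the two-sided Sidorenko inequality.
(1) Let `(G, t)` and `(H, s)` satisfy the two-sided Sidorenko inequality and have no isolated
vertices, let `K` be a set of vertices of `H` and let the other vertices of `H` be divided into two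
parts by `τ`. If the part `true` is thin over `K`, and the densities of the graphs induced by `H` on
`K` and on `K` together with the part `false` are at most the density of `H` (for all weights and
all nonnegative kernels with row and column means `1`), then the substitution of `H` into `G`
satisfies the two-sided Sidorenko inequality, hence the Sidorenko inequality for all finite graphs;
and its density is at least that of each copy of `H` in it, so the theorem can be applied again.
(2) The density of `H` is at least that of the graph induced on each thin set, and on `K` together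
with the part `false`, if the part `true` is thin over the two. (3) Replace each vertex `x` of `H`
of the colour `false` by a copy of `B`, and each vertex `y` of the colour `true` by an independent
set `J`, and join `(y, j)` to `(x, φ j)` for each edge `xy` of `H`, where `φ : J → B` is an
arbitrary map. The resulting graph satisfies the two-sided Sidorenko inequality. (4) So does the
Cartesian product of `H` and `B` without the edges of the copies of `B` over the vertices of `H` of
the colour `true`, and (5) so does the Cartesian product without the vertices both of whose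
coordinates have the colour `true`. (6) Let `H₁`, `H₂`, `D` satisfy the two-sided Sidorenko
inequality, `D` with two marked vertices `false`, `true`. If between each vertex of `H₁` with the
colour of the first marked vertex and each vertex of `H₂` with the colour of the second one a new
copy of `D` is inserted, then the resulting graph satisfies the two-sided Sidorenko inequality.
(7) The class of the finite graphs, bipartite or not, whose 1-subdivision satisfies the two-sided
Sidorenko inequality is closed under Cartesian products and joins, (8) contains all complete graphs,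
all edgeless graphs and (9) all graphs that satisfy the two-sided Sidorenko inequality themselves.
(10) All these 1-subdivisions satisfy the Sidorenko inequality for all finite graphs. -/
theorem result :
    (∀ (VG V : Type) [Fintype VG] [DecidableEq VG] [Fintype V] [DecidableEq V]
      (G : SimpleGraph VG) (t : VG → Bool) (H : SimpleGraph V) (s : V → Bool) (K : Finset V)
      (τ : V → Bool), Nonempty VG → GSid G t → GSid H s → (∀ p, ∃ q, G.Adj p q) →
      (∀ u, ∃ v, H.Adj u v) → Thin H K (univ.filter fun v => v ∉ K ∧ τ v = true) →
      Ge H s K → Ge H s (K ∪ univ.filter fun v => v ∉ K ∧ τ v = false) →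
      GSid (relSub G t H τ K) (subSide s t τ K) ∧
        (∀ (p q : VG) (tp : t p = false) (tq : t q = true), G.Adj p q →
          Ge (relSub G t H τ K) (subSide s t τ K) (univ.image (cp K τ tp tq))) ∧
        ∀ (U : Type) [Finite U] [Nonempty U] (X : SimpleGraph U),
          edgeDensity X ^ Nat.card (relSub G t H τ K).edgeSet ≤
            homDensity (relSub G t H τ K) X) ∧
    (∀ (V : Type) [Fintype V] [DecidableEq V] (H : SimpleGraph V) (s : V → Bool),
      GSid H s → (∀ S, Thin H ∅ S → Ge H s S) ∧
        ∀ (K : Finset V) (τ : V → Bool),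
          Thin H (K ∪ univ.filter fun v => v ∉ K ∧ τ v = false)
              (univ.filter fun v => v ∉ K ∧ τ v = true) →
            Ge H s (K ∪ univ.filter fun v => v ∉ K ∧ τ v = false)) ∧
    (∀ (V W J : Type) [Fintype V] [DecidableEq V] [Fintype W] [DecidableEq W] [Fintype J]
      [DecidableEq J] (H : SimpleGraph V) (t : V → Bool) (B : SimpleGraph W) (s : W → Bool)
      (φ : J → W), GSid H t → GSid B s →
      GSid (repl B H t φ) (replSide s t φ) ∧
        ∀ (U : Type) [Finite U] [Nonempty U] (X : SimpleGraph U),
          edgeDensity X ^ Nat.card (repl B H t φ).edgeSet ≤ homDensity (repl B H t φ) X) ∧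
    (∀ (V W : Type) [Fintype V] [DecidableEq V] [Fintype W] [DecidableEq W] (H : SimpleGraph V)
      (t : V → Bool) (B : SimpleGraph W) (s : W → Bool) (K : SimpleGraph (V × W)),
      GSid H t → GSid B s →
      (∀ p q, K.Adj p q ↔ (H □ B).Adj p q ∧ (p.1 = q.1 → t p.1 = false)) →
      GSid K (fun p => xor (t p.1) (s p.2)) ∧
        ∀ (U : Type) [Finite U] [Nonempty U] (X : SimpleGraph U),
          edgeDensity X ^ Nat.card K.edgeSet ≤ homDensity K X) ∧
    (∀ (V W : Type) [Fintype V] [DecidableEq V] [Fintype W] [DecidableEq W] (H : SimpleGraph V)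
      (t : V → Bool) (B : SimpleGraph W) (s : W → Bool), GSid H t → GSid B s →
      GSid ((H □ B).induce {p | t p.1 = false ∨ s p.2 = false})
          (fun p => xor (t p.1.1) (s p.1.2)) ∧
        ∀ (U : Type) [Finite U] [Nonempty U] (X : SimpleGraph U),
          edgeDensity X ^ Nat.card ((H □ B).induce {p | t p.1 = false ∨ s p.2 = false}).edgeSet ≤
            homDensity ((H □ B).induce {p | t p.1 = false ∨ s p.2 = false}) X) ∧
    (∀ (V₁ V₂ P : Type) [Fintype V₁] [DecidableEq V₁] [Fintype V₂] [DecidableEq V₂] [Fintype P]
      [DecidableEq P] (H₁ : SimpleGraph V₁) (H₂ : SimpleGraph V₂) (D : SimpleGraph (Bool ⊕ P))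
      (s₁ : V₁ → Bool) (s₂ : V₂ → Bool) (δ : Bool ⊕ P → Bool),
      GSid H₁ s₁ → GSid H₂ s₂ → GSid D δ →
      GSid (joinBy H₁ H₂ D s₁ s₂ (δ (.inl false)) (δ (.inl true)))
          (joinBySide s₁ s₂ (δ (.inl false)) (δ (.inl true)) δ) ∧
        ∀ (U : Type) [Finite U] [Nonempty U] (X : SimpleGraph U),
          edgeDensity X ^
              Nat.card (joinBy H₁ H₂ D s₁ s₂ (δ (.inl false)) (δ (.inl true))).edgeSet ≤
            homDensity (joinBy H₁ H₂ D s₁ s₂ (δ (.inl false)) (δ (.inl true))) X) ∧
    (∀ (V W : Type) [Finite V] [Finite W] (F : SimpleGraph V) (G : SimpleGraph W),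
      SubSid F → SubSid G → SubSid (F □ G) ∧ SubSid ((F ⊕g G) ⊔ completeBipartiteGraph V W)) ∧
    (∀ (V : Type) [Finite V], SubSid (⊤ : SimpleGraph V) ∧ SubSid (⊥ : SimpleGraph V)) ∧
    (∀ (V : Type) [Fintype V] [DecidableEq V] (F : SimpleGraph V) (s : V → Bool),
      GSid F s → SubSid F) ∧
    ∀ (V : Type) [Finite V] (F : SimpleGraph V), SubSid F →
      ∀ (U : Type) [Finite U] [Nonempty U] (X : SimpleGraph U),
        edgeDensity X ^ Nat.card (sub1 F).edgeSet ≤ homDensity (sub1 F) X := by
  refine ⟨substD, geCond, ?_, ?_, ?_, ?_, ?_, ?_, ?_, ?_⟩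
  · intro V W J _ _ _ _ _ _ H t B s φ hH hB
    have h := repl_gsid φ hB hH
    exact ⟨h, fun _ _ _ X => sidorenko_of_gsid h X⟩
  · intro V W _ _ _ _ H t B s K hH hB hK
    have h := half_gsid hB hH K hK
    exact ⟨h, fun _ _ _ X => sidorenko_of_gsid h X⟩
  · intro V W _ _ _ _ H t B s hH hB
    have h := corner_gsid hB hH
    exact ⟨h, fun _ _ _ X => sidorenko_of_gsid h X⟩
  · intro V₁ V₂ P _ _ _ _ _ _ H₁ H₂ D s₁ s₂ δ hH₁ hH₂ hD
    have h := joinBy_gsid hH₁ hH₂ hD rfl rfl
    exact ⟨h, fun _ _ _ X => sidorenko_of_gsid h X⟩
  · intro V W _ _ F G hF hG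
    exact ⟨subSid_box hF hG, subSid_join hF hG⟩
  · intro V _
    exact ⟨subSid_top V, subSid_of_no_edge fun _ _ h => h⟩
  · intro V _ _ F s hF
    exact subSid_of_gsid hF
  · intro V _ F hF U _ _ X
    exact subSid_sidorenko hF X

end Vale.Agent.Results.P050.LayeredProducts
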