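import Vale.Agent.P050.V3.H222.Main

/-!
# P050: Moebius ladders with missing rungs are Sidorenko

For odd `k` the Moebius ladder with `k` rungs, from which a set of rungs is deleted, satisfies
Sidorenko's inequality: `t ≥ 1` consecutive rungs are deleted, and any further rungs, except for
five rungs in fixed places, as long as at least five squares remain between the others.
-/

namespace Vale.Agent.Results.P050.MissingRungs

open Vale.Agent.P050 Vale.Agent.P050.H148 Vale.Agent.P050.V3

/-- Let `k` be odd, `t ≥ 1`, `k ≥ 2 t + 7`. Let `D` be a set of numbers smaller than `k` which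
contains `0, ..., t - 1`, but none of the numbers `t`, `t + 1`, `(k + 2 t + 1) / 2`, `k - 2` and
`k - 1`. Suppose that for at least five numbers `i` with `t + 1 ≤ i < k - 2` neither `i` nor `i + 1`
is in `D`. The graph `cutAt k D`, that is, the Moebius ladder with `k` rungs, `2 k` vertices and
`3 k` edges, from which the rungs with the numbers in `D` are deleted, is Sidorenko:
`t(cutAt k D, G) ≥ p(G) ^ (3 k - |D|)` for every finite graph `G`. The case where `D` consists of
`0, ..., t - 1` only: `t` consecutive rungs are deleted, `k ≥ 2 t + 7`. -/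
theorem result (X : Type) [Fintype X] [Nonempty X] (G : SimpleGraph X) (k t : ℕ) (D : Finset ℕ)
    (hk : Odd k) (ht : 1 ≤ t) (hkt : 2 * t + 7 ≤ k) (hD : D ⊆ Finset.range k)
    (hr : Finset.range t ⊆ D) (h0 : t ∉ D) (h1 : t + 1 ∉ D) (hc : (k + 2 * t + 1) / 2 ∉ D)
    (h2 : k - 2 ∉ D) (h3 : k - 1 ∉ D)
    (h5 : 5 ≤ ((Finset.Ico (t + 1) (k - 2)).filter fun i => i ∉ D ∧ i + 1 ∉ D).card) :
    edgeDensity G ^ (3 * k - D.card) ≤ homDensity (cutAt k D) G :=
  Vale.Agent.P050.V3.H222.main3 X G k t D hk ht hkt hD hr h0 h1 hc h2 h3 h5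

end Vale.Agent.Results.P050.MissingRungs
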